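import Mathlib.Algebra.BigOperators.Intervals
import Mathlib.Algebra.Order.BigOperators.Group.Finset
import Mathlib.Data.Int.Interval
import Mathlib.Tactic

/-!
P067, module II-c: sums over runs of consecutive integers and extremal sums of distinct integers.
-/

namespace Vale.Agent.P067.Alld.Greedy

open Finset

/-- The sum of `f` over the `m` consecutive integers from `p` on. -/
def wsum (f : ℤ → ℤ) (p : ℤ) (m : ℕ) : ℤ := ∑ l ∈ range m, f (p + l)

lemma wsum_add (f : ℤ → ℤ) (p : ℤ) (a b : ℕ) :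
    wsum f p (a + b) = wsum f p a + wsum f (p + a) b := by
  unfold wsum
  rw [sum_range_add]
  congr 1
  refine sum_congr rfl fun l _ => ?_
  push_cast
  rw [add_assoc]

lemma wsum_add₃ (f : ℤ → ℤ) {p p₂ p₃ : ℤ} {n i k l : ℕ} (hn : n = i + k + l)
    (h₂ : p + i = p₂) (h₃ : p₂ + k = p₃) :
    wsum f p n = wsum f p i + wsum f p₂ k + wsum f p₃ l := by
  subst hn h₂ h₃
  rw [wsum_add, wsum_add, Nat.cast_add, add_assoc p]

lemma wsum_comp_sub (f : ℤ → ℤ) (p s : ℤ) (m : ℕ) :
    wsum (fun k => f (k - s)) p m = wsum f (p - s) m := by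
  unfold wsum
  refine sum_congr rfl fun l _ => ?_
  show f _ = f _
  congr 1
  ring

lemma two_wsum_id (p : ℤ) (m : ℕ) : 2 * wsum (fun k => k) p m = m * (2 * p + m - 1) := by
  induction m with
  | zero => simp [wsum]
  | succ m ih =>
    unfold wsum at ih ⊢
    rw [sum_range_succ]
    push_cast
    linear_combination ih

lemma sum_Icc_eq (f : ℤ → ℤ) (p : ℤ) (m : ℕ) :
    ∑ k ∈ Icc p (p + m - 1), f k = wsum f p m := by
  refine (sum_nbij' (fun l : ℕ => p + l) (fun k : ℤ => (k - p).toNat) ?_ ?_ ?_ ?_ ?_).symm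
  all_goals intro a ha
  · simp only [mem_Icc, mem_range] at *; omega
  · simp only [mem_Icc, mem_range] at *; omega
  · simp
  · simp only [mem_Icc] at *; omega
  · rfl

/-- Exchanging the elements of `T` outside `I` for larger ones increases the sum. -/
lemma exchange (f : ℤ → ℤ) (T I : Finset ℤ) (c : ℤ) (hc : T.card = I.card)
    (h1 : ∀ m ∈ T, m ∉ I → f m ≤ c) (h2 : ∀ m ∈ I, m ∉ T → c < f m) (hne : T ≠ I) :
    ∑ m ∈ T, f m < ∑ m ∈ I, f m := by
  have hk : (T \ I).card = (I \ T).card := card_sdiff_comm hc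
  have hI : (I \ T).Nonempty := by
    rw [sdiff_nonempty]
    intro h
    exact hne (eq_of_subset_of_card_le h hc.le).symm
  have hT : ∑ m ∈ T \ I, f m ≤ (T \ I).card • c :=
    sum_le_card_nsmul _ _ _ fun m hm => h1 m (mem_sdiff.1 hm).1 (mem_sdiff.1 hm).2
  have hI' : ∑ _m ∈ I \ T, c < ∑ m ∈ I \ T, f m :=
    sum_lt_sum_of_nonempty hI fun m hm => h2 m (mem_sdiff.1 hm).1 (mem_sdiff.1 hm).2
  rw [sum_const, ← hk] at hI'
  have hd := sum_sdiff_sub_sum_sdiff (s₁ := T) (s₂ := I) (f := f)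
  linarith

variable {ι : Type*} {x : ι → ℤ}

/-- Distinct integers that are at most `M`: their sum is largest for a run ending at `M`. -/
lemma sum_below (A : Finset ι) (hinj : Function.Injective x) (M : ℤ) (h : ∀ c ∈ A, x c ≤ M) :
    2 * ∑ c ∈ A, x c ≤ A.card * (2 * M - A.card + 1) ∧
      (2 * ∑ c ∈ A, x c = A.card * (2 * M - A.card + 1) →
        ∀ f : ℤ → ℤ, ∑ c ∈ A, f (x c) = wsum f (M - A.card + 1) A.card) := by
  classical
  set a := A.card with ha
  have hIc : (Icc (M - a + 1) M).card = a := by simp [Int.card_Icc]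
  have hTc : (A.image x).card = a := card_image_of_injective _ hinj
  have him : ∀ f : ℤ → ℤ, ∑ m ∈ A.image x, f m = ∑ c ∈ A, f (x c) := fun f =>
    sum_image fun p _ q _ hpq => hinj hpq
  have hI : ∀ f : ℤ → ℤ, ∑ m ∈ Icc (M - a + 1) M, f m = wsum f (M - a + 1) a := fun f => by
    rw [← sum_Icc_eq]; congr 2; ring
  have h2 : 2 * wsum (fun k => k) (M - a + 1) a = a * (2 * M - a + 1) := by
    rw [two_wsum_id]; ring
  by_cases hne : A.image x = Icc (M - a + 1) M
  · have : ∀ f : ℤ → ℤ, ∑ c ∈ A, f (x c) = wsum f (M - a + 1) a := fun f => by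
      rw [← him, hne, hI]
    exact ⟨by rw [this fun k => k, h2], fun _ => this⟩
  · have hlt := exchange (fun k => k) _ _ (M - a) (hTc.trans hIc.symm)
      (fun m hm hm' => by
        obtain ⟨c, hc, rfl⟩ := mem_image.1 hm
        have := h c hc
        simp only [mem_Icc] at hm'
        omega)
      (fun m hm _ => by simp only [mem_Icc] at hm; omega) hne
    rw [him, hI] at hlt
    exact ⟨by linarith, fun he => absurd he (by linarith)⟩

/-- Distinct integers above `M`: their sum is smallest for a run starting at `M + 1`. -/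
lemma sum_above (B : Finset ι) (hinj : Function.Injective x) (M : ℤ) (h : ∀ c ∈ B, M < x c) :
    B.card * (2 * M + B.card + 1) ≤ 2 * ∑ c ∈ B, x c ∧
      (2 * ∑ c ∈ B, x c = B.card * (2 * M + B.card + 1) →
        ∀ f : ℤ → ℤ, ∑ c ∈ B, f (x c) = wsum f (M + 1) B.card) := by
  classical
  set b := B.card with hb
  have hIc : (Icc (M + 1) (M + 1 + b - 1)).card = b := by simp [Int.card_Icc]
  have hTc : (B.image x).card = b := card_image_of_injective _ hinj
  have him : ∀ f : ℤ → ℤ, ∑ m ∈ B.image x, f m = ∑ c ∈ B, f (x c) := fun f =>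
    sum_image fun p _ q _ hpq => hinj hpq
  have h2 : 2 * wsum (fun k => k) (M + 1) b = b * (2 * M + b + 1) := by
    rw [two_wsum_id]; ring
  by_cases hne : B.image x = Icc (M + 1) (M + 1 + b - 1)
  · have : ∀ f : ℤ → ℤ, ∑ c ∈ B, f (x c) = wsum f (M + 1) b := fun f => by
      rw [← him, hne, sum_Icc_eq]
    exact ⟨by rw [this fun k => k, h2], fun _ => this⟩
  · have hlt := exchange (fun k => k) _ _ (M + b) (hIc.trans hTc.symm)
      (fun m hm _ => by simp only [mem_Icc] at hm; omega)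
      (fun m hm hm' => by
        obtain ⟨c, hc, rfl⟩ := mem_image.1 hm
        have := h c hc
        simp only [mem_Icc] at hm'
        omega) (Ne.symm hne)
    rw [him, sum_Icc_eq] at hlt
    exact ⟨by linarith, fun he => absurd he (by linarith)⟩

/-- Distinct integers with the sum of `-n+1, ..., 0`, other than these, have a larger square sum. -/
lemma sum_sq_lt [Fintype ι] (hinj : Function.Injective x) {n : ℕ} (hn : Fintype.card ι = n)
    (hsum : ∑ c, x c = wsum (fun k => k) (-(n : ℤ) + 1) n)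
    (hx : ∃ c, x c ∉ Icc (-(n : ℤ) + 1) 0) :
    wsum (fun k => k ^ 2) (-(n : ℤ) + 1) n < ∑ c, x c ^ 2 := by
  classical
  have hn0 : 0 < n := by
    obtain ⟨c, _⟩ := hx
    exact hn ▸ Fintype.card_pos_iff.2 ⟨c⟩
  have he : (-(n : ℤ) + 1 + n - 1) = 0 := by ring
  have hIc : (Icc (-(n : ℤ) + 1) 0).card = n := by simp [Int.card_Icc]
  have hTc : (univ.image x).card = n := by rw [card_image_of_injective _ hinj, card_univ, hn]
  have hne : Icc (-(n : ℤ) + 1) 0 ≠ univ.image x := by
    obtain ⟨c, hc⟩ := hx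
    intro h
    exact hc (h ▸ mem_image_of_mem x (mem_univ c))
  have hlt := exchange (fun k => k * (k + n - 1)) _ _ 0 (hIc.trans hTc.symm)
    (fun m hm _ => by
      simp only [mem_Icc] at hm
      exact mul_nonpos_of_nonpos_of_nonneg hm.2 (by omega))
    (fun m hm hm' => by
      simp only [mem_Icc, not_and_or, not_le] at hm'
      rcases hm' with h | h
      · exact mul_pos_of_neg_of_neg (by omega) (by omega)
      · exact mul_pos h (by omega)) hne
  rw [sum_image (fun p _ q _ hpq => hinj hpq)] at hlt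
  have hI : ∀ f : ℤ → ℤ, ∑ m ∈ Icc (-(n : ℤ) + 1) 0, f m = wsum f (-(n : ℤ) + 1) n := fun f => by
    rw [← sum_Icc_eq, he]
  rw [hI] at hlt
  have e1 : wsum (fun k => k * (k + n - 1)) (-(n : ℤ) + 1) n =
      wsum (fun k => k ^ 2) (-(n : ℤ) + 1) n +
        ((n : ℤ) - 1) * wsum (fun k => k) (-(n : ℤ) + 1) n := by
    unfold wsum
    rw [mul_sum, ← sum_add_distrib]
    exact sum_congr rfl fun l _ => by ring
  have e2 : ∑ c, x c * (x c + n - 1) = ∑ c, x c ^ 2 + ((n : ℤ) - 1) * ∑ c, x c := by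
    rw [mul_sum, ← sum_add_distrib]
    exact sum_congr rfl fun c _ => by ring
  rw [e1, e2, hsum] at hlt
  linarith

lemma sum_sub_pow_four {κ : Type*} (s : Finset κ) (u : κ → ℤ) (t : ℤ) :
    ∑ c ∈ s, (u c - t) ^ 4 = ∑ c ∈ s, u c ^ 4 - 4 * t * ∑ c ∈ s, u c ^ 3
      + 6 * t ^ 2 * ∑ c ∈ s, u c ^ 2 - 4 * t ^ 3 * ∑ c ∈ s, u c + s.card * t ^ 4 := by
  have h : ∀ c, (u c - t) ^ 4 = u c ^ 4 - 4 * t * u c ^ 3 + 6 * t ^ 2 * u c ^ 2
      - 4 * t ^ 3 * u c + t ^ 4 := fun c => by ring
  simp only [h, sum_add_distrib, sum_sub_distrib, mul_sum, sum_const, nsmul_eq_mul]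

end Vale.Agent.P067.Alld.Greedy
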