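import Vale.Agent.P067.Alld.Bld.Stmt
import Vale.Agent.P067.Alld.Greedy.Sums

/-!
P067, module II-c: `GreedyStmt`. Twice the change of the square sum over `2n` is convex along a
greedy chain; where it vanishes identically the fourth power sum is a strictly convex quadratic.
-/

namespace Vale.Agent.P067.Alld.Greedy

open Finset Bld

variable {n : ℕ}

/-- `(Q(new) - Q) / n` for the neighbour with lead set `R`. -/
def slope (x : Fin n → ℤ) (R : Finset (Fin n)) : ℤ :=
  2 * ∑ c ∈ R, x c + (R.card : ℤ) * (2 * n - 1 - R.card)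

lemma toNat_sum_sq (y : Fin n → ℤ) :
    ((∑ c, (y c ^ 2).toNat : ℕ) : ℤ) = ∑ c, y c ^ 2 := by
  rw [Nat.cast_sum]
  exact sum_congr rfl fun c _ => Int.toNat_of_nonneg (sq_nonneg _)

lemma toNat_sum_four (y : Fin n → ℤ) :
    ((∑ c, (y c ^ 4).toNat : ℕ) : ℤ) = ∑ c, y c ^ 4 := by
  rw [Nat.cast_sum]
  refine sum_congr rfl fun c _ => Int.toNat_of_nonneg ?_
  positivity

lemma heightX_lt_iff (x y : Fin n → ℤ) (i j : ℕ) :
    heightX y i < heightX x j ↔ ∑ c, y c ^ 2 < ∑ c, x c ^ 2 ∨ ∑ c, y c ^ 2 = ∑ c, x c ^ 2 ∧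
      (∑ c, y c ^ 4 < ∑ c, x c ^ 4 ∨ ∑ c, y c ^ 4 = ∑ c, x c ^ 4 ∧ i < j) := by
  simp only [heightX, Prod.Lex.toLex_lt_toLex]
  rw [← toNat_sum_sq x, ← toNat_sum_sq y, ← toNat_sum_four x, ← toNat_sum_four y]
  simp only [Nat.cast_lt, Nat.cast_inj]

lemma sum_sq_shiftX (x : Fin n → ℤ) (hsum : 2 * ∑ c, x c = -((n : ℤ) * (n - 1)))
    (R : Finset (Fin n)) :
    ∑ c, shiftX x R c ^ 2 = ∑ c, x c ^ 2 + n * slope x R := by
  have h : ∀ c, shiftX x R c ^ 2 = x c ^ 2 - 2 * (R.card : ℤ) * x c + (R.card : ℤ) ^ 2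
      + if c ∈ R then 2 * (n : ℤ) * x c + ((n : ℤ) ^ 2 - 2 * n * R.card) else 0 := fun c => by
    unfold shiftX
    split <;> ring
  simp only [h, sum_add_distrib, sum_sub_distrib, ← mul_sum, sum_const, card_univ,
    Fintype.card_fin, sum_ite_mem, univ_inter, nsmul_eq_mul, slope]
  linear_combination -(R.card : ℤ) * hsum

lemma end_le (x : Fin n → ℤ) (j : ℕ) (R : Finset (Fin n))
    (h : Drop x j R ∨ R = ∅ ∨ R = univ) :
    ∑ c, shiftX x R c ^ 2 ≤ ∑ c, x c ^ 2 ∧
      (∑ c, shiftX x R c ^ 2 = ∑ c, x c ^ 2 →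
        ∑ c, shiftX x R c ^ 4 ≤ ∑ c, x c ^ 4) := by
  rcases h with h | h
  · rw [Drop, heightX_lt_iff] at h
    rcases h with h | ⟨h, h' | ⟨h', _⟩⟩
    · exact ⟨h.le, fun he => absurd he h.ne⟩
    · exact ⟨h.le, fun _ => h'.le⟩
    · exact ⟨h.le, fun _ => h'.le⟩
  · have hx : shiftX x R = x := by
      funext c
      rcases h with h | h <;> subst h <;> simp [shiftX]
    rw [hx]
    exact ⟨le_rfl, fun _ => le_rfl⟩

/-- On a run of consecutive values with constant square sum the fourth power sum is strictly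
convex. -/
lemma segment (x : Fin n → ℤ) (hinj : Function.Injective x)
    (hsum' : ∑ c, x c = wsum (fun k => k) (-(n : ℤ) + 1) n)
    (hx : ∃ c, x c ∉ Icc (-(n : ℤ) + 1) 0) (R S R₀ : Finset (Fin n))
    (hRsS : R ⊆ S) (hSsR₀ : S ⊆ R₀) (a b : ℕ) (ha : (0 : ℤ) < a) (hb : (0 : ℤ) < b)
    (haA : (S \ R).card = a) (hbB : (R₀ \ S).card = b)
    (sqR : ∑ c, shiftX x R c ^ 2 = ∑ c, x c ^ 2)
    (fA : ∀ f : ℤ → ℤ, ∑ c ∈ S \ R, f (x c) = wsum f ((R.card : ℤ) - n + 1) a)
    (fB : ∀ f : ℤ → ℤ, ∑ c ∈ R₀ \ S, f (x c) = wsum f ((R.card : ℤ) + a - n + 1) b) :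
    ((a : ℤ) + b) * ∑ c, shiftX x S c ^ 4
      < b * ∑ c, shiftX x R c ^ 4 + a * ∑ c, shiftX x R₀ c ^ 4 := by
  set A := S \ R with hAdef
  set B := R₀ \ S with hBdef
  set O := univ \ R₀ with hOdef
  set r : ℤ := (R.card : ℤ) with hr
  set q := R.card + O.card with hqdef
  have sU : ∀ g : Fin n → ℤ, ∑ c, g c =
      ∑ c ∈ R, g c + ∑ c ∈ A, g c + ∑ c ∈ B, g c + ∑ c ∈ O, g c := fun g => by
    have h1 : ∑ c ∈ O, g c + ∑ c ∈ R₀, g c = ∑ c, g c := sum_sdiff (subset_univ R₀)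
    have h2 : ∑ c ∈ A, g c + ∑ c ∈ R, g c = ∑ c ∈ S, g c := sum_sdiff hRsS
    have h3 : ∑ c ∈ B, g c + ∑ c ∈ S, g c = ∑ c ∈ R₀, g c := sum_sdiff hSsR₀
    linarith
  have cS : (S.card : ℤ) = r + a := by
    have := card_sdiff_add_card_eq_card hRsS
    rw [← hAdef] at this
    omega
  have cR₀ : (R₀.card : ℤ) = r + a + b := by
    have := card_sdiff_add_card_eq_card hSsR₀
    rw [← hBdef] at this
    omega
  have cU : R.card + a + b + O.card = n := by
    have := card_sdiff_add_card_eq_card (subset_univ R₀)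
    rw [← hOdef, card_univ, Fintype.card_fin] at this
    omega
  -- the other values
  let v : Fin n → ℤ := fun c => if c ∈ R then x c + n - r else x c - r
  have memA : ∀ c ∈ A, c ∉ R ∧ c ∈ S ∧ c ∈ R₀ := fun c hc => by
    rw [hAdef, mem_sdiff] at hc; exact ⟨hc.2, hc.1, hSsR₀ hc.1⟩
  have memB : ∀ c ∈ B, c ∉ R ∧ c ∉ S ∧ c ∈ R₀ := fun c hc => by
    rw [hBdef, mem_sdiff] at hc; exact ⟨fun h => hc.2 (hRsS h), hc.2, hc.1⟩
  have memO : ∀ c ∈ O, c ∉ R ∧ c ∉ S ∧ c ∉ R₀ := fun c hc => by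
    rw [hOdef, mem_sdiff] at hc
    exact ⟨fun h => hc.2 (hSsR₀ (hRsS h)), fun h => hc.2 (hSsR₀ h), hc.2⟩
  let U : (ℤ → ℤ) → ℤ → ℤ := fun f t =>
    ∑ c ∈ R, f (v c - t) + ∑ c ∈ O, f (v c - t)
  let W : (ℤ → ℤ) → ℤ → ℤ := fun f t => wsum f (-(n : ℤ) + 1 + a + b - t) q
  have hq : (n : ℕ) = a + b + q := by omega
  have hqZ : (n : ℤ) = a + b + q := by exact_mod_cast hq
  have gR : ∀ f : ℤ → ℤ, ∑ c, f (shiftX x R c)
      = U f 0 + (wsum f (-(n : ℤ) + 1) n - W f 0) := fun f => by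
    have h1 : ∑ c ∈ A, f (shiftX x R c) = wsum f (-(n : ℤ) + 1) a := by
      rw [sum_congr rfl fun c hc => show f (shiftX x R c) = f (x c - r) by
        simp [shiftX, (memA c hc).1, hr]]
      rw [fA fun k => f (k - r), wsum_comp_sub]
      congr 1; ring
    have h2 : ∑ c ∈ B, f (shiftX x R c) = wsum f (-(n : ℤ) + 1 + a) b := by
      rw [sum_congr rfl fun c hc => show f (shiftX x R c) = f (x c - r) by
        simp [shiftX, (memB c hc).1, hr]]
      rw [fB fun k => f (k - r), wsum_comp_sub]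
      congr 1; ring
    have h3 : wsum f (-(n : ℤ) + 1) n = wsum f (-(n : ℤ) + 1) a
        + wsum f (-(n : ℤ) + 1 + a) b + W f 0 :=
      wsum_add₃ f hq rfl (by ring)
    rw [sU, h1, h2, h3]
    simp only [U, v, sub_zero, shiftX, hr]
    ring
  have gS : ∀ f : ℤ → ℤ, ∑ c, f (shiftX x S c)
      = U f a + (wsum f (-(n : ℤ) + 1) n - W f a) := fun f => by
    have h1 : ∑ c ∈ A, f (shiftX x S c) = wsum f (-(a : ℤ) + 1) a := by
      rw [sum_congr rfl fun c hc => show f (shiftX x S c) = f (x c - (r + a - n)) by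
        simp only [shiftX, (memA c hc).2.1, if_true, cS]; congr 1; ring]
      rw [fA fun k => f (k - (r + a - n)), wsum_comp_sub]
      congr 1; ring
    have h2 : ∑ c ∈ B, f (shiftX x S c) = wsum f (-(n : ℤ) + 1) b := by
      rw [sum_congr rfl fun c hc => show f (shiftX x S c) = f (x c - (r + a)) by
        simp only [shiftX, (memB c hc).2.1, if_false, cS]]
      rw [fB fun k => f (k - (r + a)), wsum_comp_sub]
      congr 1; ring
    have h3 : wsum f (-(n : ℤ) + 1) n = wsum f (-(n : ℤ) + 1) b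
        + W f a + wsum f (-(a : ℤ) + 1) a :=
      wsum_add₃ f (by omega) (by ring) (by linarith)
    have h4 : ∑ c ∈ R, f (shiftX x S c) = ∑ c ∈ R, f (v c - a) := sum_congr rfl fun c hc => by
      simp only [shiftX, v, hRsS hc, hc, if_true, cS]; congr 1; ring
    have h5 : ∑ c ∈ O, f (shiftX x S c) = ∑ c ∈ O, f (v c - a) := sum_congr rfl fun c hc => by
      simp only [shiftX, v, (memO c hc).1, (memO c hc).2.1, if_false, cS]; congr 1; ring
    rw [sU, h1, h2, h3, h4, h5]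
    simp only [U]
    ring
  have gR₀ : ∀ f : ℤ → ℤ, ∑ c, f (shiftX x R₀ c)
      = U f (a + b) + (wsum f (-(n : ℤ) + 1) n - W f (a + b)) := fun f => by
    have h1 : ∑ c ∈ A, f (shiftX x R₀ c) = wsum f (-((a : ℤ) + b) + 1) a := by
      rw [sum_congr rfl fun c hc => show f (shiftX x R₀ c) = f (x c - (r + a + b - n)) by
        simp only [shiftX, (memA c hc).2.2, if_true, cR₀]; congr 1; ring]
      rw [fA fun k => f (k - (r + a + b - n)), wsum_comp_sub]
      congr 1; ring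
    have h2 : ∑ c ∈ B, f (shiftX x R₀ c) = wsum f (-(b : ℤ) + 1) b := by
      rw [sum_congr rfl fun c hc => show f (shiftX x R₀ c) = f (x c - (r + a + b - n)) by
        simp only [shiftX, (memB c hc).2.2, if_true, cR₀]; congr 1; ring]
      rw [fB fun k => f (k - (r + a + b - n)), wsum_comp_sub]
      congr 1; ring
    have h3 : wsum f (-(n : ℤ) + 1) n = W f (a + b) + wsum f (-((a : ℤ) + b) + 1) a
        + wsum f (-(b : ℤ) + 1) b := by
      have h := wsum_add₃ f (p := -(n : ℤ) + 1) (p₂ := -((a : ℤ) + b) + 1)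
        (p₃ := -(b : ℤ) + 1) (show n = q + a + b by omega) (by linarith) (by ring)
      simpa [W, add_sub_cancel_right, show -(n : ℤ) + 1 + a + b - (a + b) = -(n : ℤ) + 1 by ring]
        using h
    have h4 : ∑ c ∈ R, f (shiftX x R₀ c) = ∑ c ∈ R, f (v c - (a + b)) :=
      sum_congr rfl fun c hc => by
        simp only [shiftX, v, hSsR₀ (hRsS hc), hc, if_true, cR₀]; congr 1; ring
    have h5 : ∑ c ∈ O, f (shiftX x R₀ c) = ∑ c ∈ O, f (v c - (a + b)) :=
      sum_congr rfl fun c hc => by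
        simp only [shiftX, v, (memO c hc).1, (memO c hc).2.2, if_false, cR₀]; congr 1; ring
    rw [sU, h1, h2, h3, h4, h5]
    simp only [U]
    ring
  -- power sums of the other values against the standard ones
  let p : ℕ → ℤ := fun m => U (· ^ m) 0 - W (· ^ m) 0
  have e1 : p 1 = 0 := by
    have := gR fun k => k
    have hid : ∑ c, shiftX x R c = ∑ c, x c := by
      have h : ∀ c, shiftX x R c = x c - r + if c ∈ R then (n : ℤ) else 0 := fun c => by
        simp only [shiftX, hr]; split <;> ring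
      simp only [h, sum_add_distrib, sum_sub_distrib, sum_const, card_univ, Fintype.card_fin,
        sum_ite_mem, univ_inter, nsmul_eq_mul, hr]
      ring
    rw [hid, hsum'] at this
    simp only [p, pow_one]
    linarith
  have e2 : 0 < p 2 := by
    have hlt := sum_sq_lt hinj (Fintype.card_fin n) hsum' hx
    have := gR (· ^ 2)
    rw [sqR] at this
    simp only [p]
    linarith
  have expand : ∀ t, U (· ^ 4) t - W (· ^ 4) t
      = p 4 - 4 * t * p 3 + 6 * t ^ 2 * p 2 := fun t => by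
    have hW : ∀ g : ℤ → ℤ, W g t = ∑ l ∈ range q, g (-(n : ℤ) + 1 + a + b + l - t) := fun g =>
      sum_congr rfl fun l _ => by congr 1; ring
    rw [hW]
    simp only [p, U, W, wsum, sub_zero, sum_sub_pow_four, card_range, pow_one] at e1 ⊢
    rw [hqdef] at e1 ⊢
    push_cast
    linear_combination (-4 * t ^ 3) * e1
  rw [gR (· ^ 4), gS (· ^ 4), gR₀ (· ^ 4)]
  have x0 := expand 0
  have x1 := expand a
  have x2 := expand (a + b)
  have pos : 0 < 6 * p 2 * a * b * ((a : ℤ) + b) := by positivity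
  linear_combination pos + (a + b : ℤ) * x1 - (b : ℤ) * x0 - (a : ℤ) * x2

theorem greedyStmt : GreedyStmt := by
  intro n j x hj hres hsum hx R R₀ S hR hR₀ hRS hSR₀ hsep
  have hn : 0 < n := by omega
  have hinj : Function.Injective x := fun a b h => hres a b (by simp [h])
  have hsum' : ∑ c, x c = wsum (fun k => k) (-(n : ℤ) + 1) n := by
    rw [hsum, ← sum_Icc_eq (fun k => k)]
    congr 2
    ring
  have hsum2 : 2 * ∑ c, x c = -((n : ℤ) * (n - 1)) := by
    rw [hsum', two_wsum_id]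
    ring
  -- the four parts
  have hRsS := hRS.subset
  have hSsR₀ := hSR₀.subset
  set A := S \ R with hAdef
  set B := R₀ \ S with hBdef
  have sS : ∀ g : Fin n → ℤ, ∑ c ∈ A, g c + ∑ c ∈ R, g c = ∑ c ∈ S, g c := fun g =>
    sum_sdiff hRsS
  have sR₀ : ∀ g : Fin n → ℤ, ∑ c ∈ B, g c + ∑ c ∈ S, g c = ∑ c ∈ R₀, g c := fun g =>
    sum_sdiff hSsR₀
  have hA : A.Nonempty := sdiff_nonempty.2 hRS.2
  have hB : B.Nonempty := sdiff_nonempty.2 hSR₀.2
  have cS : (S.card : ℤ) = R.card + A.card := by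
    have := card_sdiff_add_card_eq_card hRsS
    rw [← hAdef] at this
    omega
  have cR₀ : (R₀.card : ℤ) = R.card + A.card + B.card := by
    have := card_sdiff_add_card_eq_card hSsR₀
    rw [← hBdef] at this
    omega
  have ha : (0 : ℤ) < A.card := by exact_mod_cast hA.card_pos
  have hb : (0 : ℤ) < B.card := by exact_mod_cast hB.card_pos
  obtain ⟨a₀, ha₀, hmax⟩ := exists_max_image A x hA
  set M := x a₀ with hM
  obtain ⟨hAle, hAeq⟩ := sum_below A hinj M hmax
  obtain ⟨hBle, hBeq⟩ := sum_above B hinj M fun c hc => hsep a₀ ha₀ c hc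
  obtain ⟨hRle, hR4⟩ := end_le x j R hR
  obtain ⟨hR₀le, hR₀4⟩ := end_le x j R₀ hR₀
  rw [Drop, heightX_lt_iff]
  have hnz : (0 : ℤ) < n := by exact_mod_cast hn
  have dR : slope x R ≤ 0 := by
    rw [sum_sq_shiftX x hsum2] at hRle
    exact nonpos_of_mul_nonpos_right (by linarith) hnz
  have dR₀ : slope x R₀ ≤ 0 := by
    rw [sum_sq_shiftX x hsum2] at hR₀le
    exact nonpos_of_mul_nonpos_right (by linarith) hnz
  have up : slope x S ≤ slope x R
      + 2 * (A.card : ℤ) * (M + n - R.card - A.card) := by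
    have := sS x
    simp only [slope, cS]
    linarith
  have down : slope x S ≤ slope x R₀
      - 2 * (B.card : ℤ) * (M + n - R.card - A.card) := by
    have := sR₀ x
    simp only [slope, cS, cR₀]
    linarith
  by_cases hd : slope x S < 0
  · left
    rw [sum_sq_shiftX x hsum2]
    nlinarith
  -- the degenerate segment
  rw [not_lt] at hd
  have hc : M + n - R.card - A.card = 0 := by
    rcases lt_trichotomy (M + n - R.card - A.card) 0 with h | h | h
    · nlinarith
    · exact h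
    · nlinarith
  rw [hc, mul_zero, add_zero] at up
  rw [hc, mul_zero, sub_zero] at down
  have eS : slope x S = 0 := le_antisymm (up.trans dR) hd
  have eR : slope x R = 0 := by linarith
  have eR₀ : slope x R₀ = 0 := by linarith
  have sqS : ∑ c, shiftX x S c ^ 2 = ∑ c, x c ^ 2 := by
    rw [sum_sq_shiftX x hsum2, eS, mul_zero, add_zero]
  have sqR : ∑ c, shiftX x R c ^ 2 = ∑ c, x c ^ 2 := by
    rw [sum_sq_shiftX x hsum2, eR, mul_zero, add_zero]
  have sqR₀ : ∑ c, shiftX x R₀ c ^ 2 = ∑ c, x c ^ 2 := by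
    rw [sum_sq_shiftX x hsum2, eR₀, mul_zero, add_zero]
  refine Or.inr ⟨sqS, Or.inl ?_⟩
  -- values on `A` and `B`
  set r : ℤ := (R.card : ℤ) with hr
  set a := A.card with hadef
  set b := B.card with hbdef
  have hMeq : M = r + a - n := by linarith
  have fA : ∀ f : ℤ → ℤ, ∑ c ∈ A, f (x c) = wsum f (r - n + 1) a := fun f => by
    rw [hAeq ?_ f]
    · congr 1; rw [hMeq]; ring
    · refine le_antisymm hAle ?_
      have := sS x
      simp only [slope, cS] at eS eR
      rw [hMeq]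
      linarith
  have fB : ∀ f : ℤ → ℤ, ∑ c ∈ B, f (x c) = wsum f (r + a - n + 1) b := fun f => by
    rw [hBeq ?_ f, hMeq]
    refine le_antisymm ?_ hBle
    have := sR₀ x
    simp only [slope, cS, cR₀] at eS eR₀
    rw [hMeq]
    linarith
  have key := segment x hinj hsum' hx R S R₀ hRsS hSsR₀ a b ha hb rfl rfl sqR fA fB
  have k0 := mul_le_mul_of_nonneg_left (hR4 sqR) hb.le
  have k2 := mul_le_mul_of_nonneg_left (hR₀4 sqR₀) ha.le
  exact lt_of_mul_lt_mul_left (by linarith) (add_nonneg ha.le hb.le)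

end Vale.Agent.P067.Alld.Greedy
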